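import Mathlib
import Vale.Agent.Lib.P058.Defs

/-!
# P058: the action of a pair of plane isometries on the two coordinates (pool piece J4)
-/

namespace Vale.Agent.Lib.P058.H99

open Vale.Agent.Lib.P058

theorem pairAct_apply (g : (ℂ ≃ₗᵢ[ℝ] ℂ) × (ℂ ≃ₗᵢ[ℝ] ℂ)) (p : E2) :
    pairAct g p 0 = g.1 (p 0) ∧ pairAct g p 1 = g.2 (p 1) := by
  constructor
  · simp [pairAct, LinearIsometryEquiv.piLpCongrRight_apply]
  · simp [pairAct, LinearIsometryEquiv.piLpCongrRight_apply]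

theorem pairAct_one : pairAct 1 = 1 := by
  apply IsometryEquiv.ext
  intro p
  ext i
  fin_cases i
  · exact (pairAct_apply 1 p).1
  · exact (pairAct_apply 1 p).2

theorem pairAct_mul (g h : (ℂ ≃ₗᵢ[ℝ] ℂ) × (ℂ ≃ₗᵢ[ℝ] ℂ)) :
    pairAct (g * h) = pairAct g * pairAct h := by
  apply IsometryEquiv.ext
  intro p
  ext i
  fin_cases i
  · show pairAct (g * h) p 0 = pairAct g (pairAct h p) 0
    rw [(pairAct_apply (g * h) p).1, (pairAct_apply g (pairAct h p)).1, (pairAct_apply h p).1]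
    rfl
  · show pairAct (g * h) p 1 = pairAct g (pairAct h p) 1
    rw [(pairAct_apply (g * h) p).2, (pairAct_apply g (pairAct h p)).2, (pairAct_apply h p).2]
    rfl

/-- The action of pairs of plane isometries on `E2`, as a monoid homomorphism. -/
noncomputable def pairHom : ((ℂ ≃ₗᵢ[ℝ] ℂ) × (ℂ ≃ₗᵢ[ℝ] ℂ)) →* (E2 ≃ᵢ E2) where
  toFun := pairAct
  map_one' := pairAct_one
  map_mul' := pairAct_mul

theorem pairHom_apply (g : (ℂ ≃ₗᵢ[ℝ] ℂ) × (ℂ ≃ₗᵢ[ℝ] ℂ)) : pairHom g = pairAct g := rfl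

end Vale.Agent.Lib.P058.H99
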